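import Crest.Agent.X262.Tree87.Ses

/-!
# Row 262, road B (helper84): the tree half of the concave end

* `finrank_tw` : Riemann-Roch under twists;
* `wU j` : the matrix of `w ↦ w ∧ U`; `finrank_HU`, `finrank_cU`, `cU_le`;
* `indep` : two independent points; `deg0`, `V_add` : factors of degree zero.
-/

set_option autoImplicit false
set_option linter.unusedSectionVars false

noncomputable section

namespace Crest.Agent.X262.Cc84

open Polynomial Crest.Agent.X262.Bub96 Crest.Agent.X262.Bub96.Tr Crest.Agent.X262.Vb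
open Crest.Agent.X262.Tree87
open Crest.Agent.X277 Crest.Agent.X277.BD

/-- twist of a splitting -/
def Split.twist {k : Type*} [Field k] {ι : Type*} {e : ι → ℤ}
    {N : Option k → Submodule k (ι → k)} {c : ℕ} (S : Split e N c) (l : ℤ) :
    Split (tw e l) N c where
  α i := S.α i + l
  m := S.m
  deg i j := by
    rw [tw_tw, show -(S.α i + l) + l = -S.α i by ring]
    exact S.deg i j
  li p := by
    simp only [tw_tw, show ∀ i, -(S.α i + l) + l = -S.α i from fun i => by ring]
    exact S.li p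
  sp p := by
    simp only [tw_tw, show ∀ i, -(S.α i + l) + l = -S.α i from fun i => by ring]
    exact S.sp p
  gen l' σ hσ := by
    rw [tw_tw] at hσ
    obtain ⟨q, h1, h2⟩ := S.gen _ σ hσ
    exact ⟨q, fun i => by rw [show l' + (S.α i + l) = l' + l + S.α i by ring]; exact h1 i, h2⟩

variable {J : Type} [Fintype J] [DecidableEq J] {io : J → Type} [∀ j, Fintype (io j)]
  [∀ j, DecidableEq (io j)] {A B I : Type} [Fintype A] [Fintype B] [Fintype I]
  {E : Type} [Field E] [Algebra ℂ E] {d : J → ℕ} {N : ℕ} {z : Cfg io I E}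
  {kk : B → J → ℕ} {k0 : A → J → ℕ} {γ : B → A → MvPolynomial (Vr io) ℂ}

theorem dot_add_left (κ κ' d : J → ℕ) : dot (κ + κ') d = dot κ d + dot κ' d := by
  simp only [dot, Pi.add_apply, add_mul, Finset.sum_add_distrib]

theorem dot_single (j : J) (d : J → ℕ) : dot (Pi.single j 1) d = d j := by
  simp [dot, Pi.single_apply]

theorem hz_add (h : HZ kk k0 γ) (κ : J → ℕ) : HZ (fun b => κ + kk b) (fun a => κ + k0 a) γ :=
  fun b a => (h b a).congr fun j => by simp

/-- Riemann-Roch under twists -/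
theorem finrank_tw {k : Type} [Field k] [Algebra ℂ k] [IsAlgClosed k] (D : TD d N z k)
    (h : HZ kk k0 γ) {n : ℕ} (e : ∀ x, Module.finrank k (pR γ (D.t.ev x)) = n) (κ : J → ℕ)
    (hk : ∀ b j, (n + 1) * (κ + kk b) j ≤ N) :
    Module.finrank E (Rb (fun b => κ + kk b) γ z) = Module.finrank E (Rb kk γ z) + n * dot κ d := by
  have h1 : ∀ x, pR γ (D.t.ev x) = LinearMap.ker (pM (mn γ n) (D.t.ev x)).mulVecLin :=
    fun x => (pK_mn (e x)).symm
  have hS : ∀ v, ∃ S : Split (vdz kk D.t v) (fun p => pR γ (D.t.ev (v, p))) n, ∀ i, 0 ≤ S.α i :=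
    fun v => by
      have := (hm_sb (h.mn n) D.ok).exists_split (c := n)
        (VG_congr (N := pR γ) h1 (hm_sb h D.ok).vg_range) (fun x =>
          (congrArg (fun U : Submodule k (B → k) => Module.finrank k U) (h1 x)).symm.trans (e x)) v
      have h2 : (fun p => pR γ (D.t.ev (v, p))) =
          fun p => LinearMap.ker (pM (mn γ n) (D.t.ev (v, p))).mulVecLin :=
        funext fun p => h1 (v, p)
      rw [h2]
      exact this
  choose S hS using hS
  have h2 : ∀ v, vdz (fun b => κ + kk b) D.t v = tw (vdz kk D.t v) (dot κ (D.t.vd v)) := fun v =>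
    funext fun b => by simp [vdz, dot_add_left]
  have r1 := rr_tree D.ok S hS
  have r2 := rr_tree (kk := fun b => κ + kk b) (N := pR γ) D.ok
    (fun v => (h2 v).symm ▸ Split.twist (S v) (dot κ (D.t.vd v))) fun v i => by
      have : ∀ (e' : B → ℤ) (he : tw (vdz kk D.t v) (dot κ (D.t.vd v)) = e'),
          (he ▸ Split.twist (S v) (dot κ (D.t.vd v)) : Split e' _ n).α i =
            (S v).α i + dot κ (D.t.vd v) := fun e' he => by subst he; rfl
      rw [this]
      exact add_nonneg (hS v i) (Int.natCast_nonneg _)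
  have h3 : ∀ v i, ((h2 v).symm ▸ Split.twist (S v) (dot κ (D.t.vd v)) :
      Split (vdz (fun b => κ + kk b) D.t v) _ n).α i = (S v).α i + dot κ (D.t.vd v) := fun v i => by
    have : ∀ (e' : B → ℤ) (he : tw (vdz kk D.t v) (dot κ (D.t.vd v)) = e'),
        (he ▸ Split.twist (S v) (dot κ (D.t.vd v)) : Split e' _ n).α i =
          (S v).α i + dot κ (D.t.vd v) := fun e' he => by subst he; rfl
    exact this _ _
  simp only [h3, Finset.sum_add_distrib, Finset.sum_const, Finset.card_univ, Fintype.card_fin,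
    nsmul_eq_mul, ← Finset.mul_sum] at r2
  have h4 : ∑ v, (dot κ (D.t.vd v) : ℤ) = dot κ d := by
    have := sum_dot_vd κ D.t
    rw [D.deg] at this
    exact_mod_cast this
  rw [D.finrank_Rb (hz_add h κ) e hk, D.finrank_Rb h e fun b j =>
    (Nat.mul_le_mul_left _ (Nat.le_add_left _ _)).trans (hk b j)]
  rw [h4] at r2
  zify
  rw [r1, r2]
  ring

/-- the matrix of `w ↦ w ∧ U` (equal to `Conc78.wdM (vr j)` by `rfl`) -/
def wU (io : J → Type) [∀ j, DecidableEq (io j)] (j : J) :
    io j × io j → io j → MvPolynomial (Vr io) ℂ :=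
  fun b a => (if a = b.1 then MvPolynomial.X ⟨j, b.2⟩ else 0) -
    if a = b.2 then MvPolynomial.X ⟨j, b.1⟩ else 0

/-- the column of the coordinates -/
def cl (io : J → Type) (j : J) : io j → Unit → MvPolynomial (Vr io) ℂ :=
  fun a _ => MvPolynomial.X ⟨j, a⟩

theorem mz_X (j : J) (a : io j) :
    MZ (MvPolynomial.X ⟨j, a⟩ : MvPolynomial (Vr io) ℂ)
      fun i => (((Pi.single j 1 : J → ℕ) i : ℕ) : ℤ) - ((0 : J → ℕ) i : ℕ) :=
  (MZ.X (⟨j, a⟩ : Vr io)).congr fun i => by
    by_cases h : i = j <;> simp [h]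

theorem hz_wU (j : J) : HZ (fun _ => Pi.single j 1) (fun _ => 0) (wU io j) := fun b a => by
  refine (MvPolynomial.weightedHomogeneousSubmodule ℂ _ _).sub_mem (?_ : MZ _ _) (?_ : MZ _ _) <;>
    split_ifs
  exacts [mz_X _ _, MZ.zero _, mz_X _ _, MZ.zero _]

theorem hz_cl (j : J) : HZ (fun _ => Pi.single j 1) (fun _ => 0) (cl io j) := fun _ _ => mz_X _ _

theorem pv_wU (j : J) (y : Pnt io E) (b : io j × io j) (a : io j) :
    pv y (wU io j b a) = (if a = b.1 then y j b.2 else 0) - if a = b.2 then y j b.1 else 0 := by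
  unfold wU pv
  split_ifs <;> simp

theorem sum_wU (j : J) (y : Pnt io E) (w : io j → E) (b : io j × io j) :
    ∑ a, pv y (wU io j b a) * w a = w b.1 * y j b.2 - w b.2 * y j b.1 := by
  simp only [pv_wU, sub_mul, Finset.sum_sub_distrib, ite_mul, zero_mul, Finset.sum_ite_eq',
    Finset.mem_univ, if_true]
  ring

theorem mem_pR_cl {j : J} {y : Pnt io E} {w : io j → E} :
    w ∈ pR (cl io j) y ↔ ∃ c, ∀ a, w a = c * y j a := by
  constructor
  · rintro ⟨u, rfl⟩
    exact ⟨u (), fun a => by simp [pM, cl, pv, Matrix.mulVec, dotProduct, mul_comm]⟩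
  · rintro ⟨c, hc⟩
    exact ⟨fun _ => c, funext fun a => by
      simp [pM, cl, pv, Matrix.mulVec, dotProduct, mul_comm, hc]⟩

theorem pK_wU {j : J} {y : Pnt io E} (hy : ∃ i, y j i ≠ 0) : pK (wU io j) y = pR (cl io j) y := by
  obtain ⟨i, hi⟩ := hy
  ext w
  simp only [mem_pK, sum_wU, mem_pR_cl]
  constructor
  · intro h
    refine ⟨w i / y j i, fun a => ?_⟩
    have := h (a, i)
    field_simp
    linear_combination this
  · rintro ⟨c, hc⟩ b
    rw [hc, hc]
    ring

theorem finrank_cl {j : J} {y : Pnt io E} (hy : ∃ i, y j i ≠ 0) :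
    Module.finrank E (pR (cl io j) y) = 1 := by
  obtain ⟨i, hi⟩ := hy
  have : pR (cl io j) y = E ∙ y j := by
    ext w
    simp only [mem_pR_cl, Submodule.mem_span_singleton, funext_iff, Pi.smul_apply, smul_eq_mul,
      eq_comm]
  rw [this]
  exact finrank_span_singleton fun h => hi (congrFun h i)

theorem finrank_wU {j : J} {y : Pnt io E} (hy : ∃ i, y j i ≠ 0) :
    Module.finrank E (pR (wU io j) y) = Fintype.card (io j) - 1 := by
  have := finrank_pR_add_pK (wU io j) y
  rw [pK_wU hy, finrank_cl hy] at this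
  omega

theorem single_le (j i : J) : (Pi.single j 1 : J → ℕ) i ≤ 1 := by
  by_cases h : i = j <;> simp [h]

/-- `h⁰` of the tautological quotient -/
theorem finrank_HU (h : TL d N z) (j : J) (hN : 2 * (Fintype.card (io j) + 1) ≤ N) :
    Module.finrank E (Rb (fun _ => Pi.single j 1) (wU io j) z) + 1 =
      Fintype.card (io j) + d j := by
  obtain ⟨k, _, _, _, ⟨D⟩⟩ := h
  have nz : ∀ x, ∃ i, D.t.ev x j i ≠ 0 := fun x => D.ok.ev_ne x j
  have hc : 0 < Fintype.card (io j) := by
    obtain ⟨i, -⟩ := nz (D.t.root, none)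
    exact Fintype.card_pos_iff.2 ⟨i⟩
  have b1 : ∀ i, (Fintype.card (io j) + 1) * (Pi.single j 1 : J → ℕ) i ≤ N := fun i => by
    have := Nat.mul_le_mul_left (Fintype.card (io j) + 1) (single_le j i)
    omega
  have b2 : ∀ i, (Fintype.card (io j) + 1) * (Pi.single j 1 + Pi.single j 1 : J → ℕ) i ≤ N :=
    fun i => by
      have := Nat.mul_le_mul_left (Fintype.card (io j) + 1) (single_le j i)
      rw [Pi.add_apply, mul_add]
      omega
  have e1 := finrank_tw D (hz_wU j) (fun x => finrank_wU (nz x)) (Pi.single j 1) fun _ i =>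
    (Nat.mul_le_mul_right _ (by omega)).trans (b2 i)
  have e2 := (D.lift (kk := fun _ : io j => Pi.single j 1) (hz_cl j)
    (k2 := fun _ => Pi.single j 1 + Pi.single j 1)
    (by simpa using hz_add (hz_wU (io := io) j) (Pi.single j 1)) (fun x => finrank_cl (nz x))
    (fun x => pK_wU (nz x)) (fun _ => b1) fun _ => b2).2.2
  have e3 := (D.lift (kk := fun _ : Unit => 0) (γ' := fun _ (_ : Empty) => 0) (k1 := fun _ => 0)
    (fun _ _ => MZ.zero _) (hz_cl j) (n' := 0) (fun x => by
      rw [Submodule.finrank_eq_zero, eq_bot_iff]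
      rintro _ ⟨u, rfl⟩
      exact funext fun _ => by simp [Matrix.mulVec, dotProduct]) (fun x => by
      obtain ⟨i, hi⟩ := nz x
      ext u
      simp only [mem_pK]
      constructor
      · intro hu
        have := hu i
        simp only [cl, pv, MvPolynomial.aeval_X, Finset.univ_unique, Finset.sum_singleton,
          mul_eq_zero, hi, false_or] at this
        exact ⟨0, funext fun _ => by simpa using this.symm⟩
      · rintro ⟨u, rfl⟩ c
        simp [Matrix.mulVec, dotProduct]) (fun _ _ => by simp) fun _ i => by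
      have := single_le j i
      simp only [Fintype.card_unique]
      omega).2.2
  have e4 : Module.finrank E (Rb (fun _ : Unit => (0 : J → ℕ))
      (fun _ (_ : Empty) => (0 : MvPolynomial (Vr io) ℂ)) z) = 0 := by
    rw [Submodule.finrank_eq_zero, eq_bot_iff]
    intro σ hσ
    funext x
    obtain ⟨u, hu⟩ := (mem_Rb.1 hσ).2 x.2
    simpa [Matrix.mulVec, dotProduct] using (congrFun hu x.1).symm
  simp only [dot_single, Finset.sum_const, Finset.card_univ, smul_eq_mul] at e1 e2
  rw [e4] at e3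
  simp only [dot, Pi.zero_apply, zero_mul, Finset.sum_const_zero, zero_add, add_zero,
    Finset.univ_unique, Finset.sum_singleton] at e3
  rw [e1, e3] at e2
  obtain ⟨u, hu⟩ := Nat.exists_eq_succ_of_ne_zero hc.ne'
  rw [hu] at e2 ⊢
  simp only [Nat.succ_eq_add_one, Nat.add_sub_cancel] at e2 ⊢
  nlinarith

theorem one_mem_V (h : TL d N z) : (fun _ => (1 : E)) ∈ z.V 0 := by
  have := h.pv_mem_V (F := 1) (κ := 0) (MvPolynomial.isWeightedHomogeneous_one _ _)
    fun _ => Nat.zero_le _
  simpa [pv] using this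

theorem X_mem_V (h : TL d N z) (hN : 1 ≤ N) (j : J) (a : io j) :
    (fun q => z.y q j a) ∈ z.V (Pi.single j 1) := by
  have := h.pv_mem_V (F := MvPolynomial.X ⟨j, a⟩) (κ := Pi.single j 1)
    (MvPolynomial.isWeightedHomogeneous_X ℂ (fun v : Vr io => (Pi.single v.1 1 : J → ℕ)) ⟨j, a⟩)
    fun i => (single_le j i).trans hN
  simpa [pv] using this

theorem nonempty_pts (h : TL d N z) : Nonempty I := by
  by_contra h0
  rw [not_nonempty_iff] at h0
  have h1 := h.finrank_V (κ := 0) fun _ => Nat.zero_le _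
  have h2 := Submodule.finrank_le (z.V 0)
  rw [Module.finrank_fintype_fun_eq_card, Fintype.card_eq_zero] at h2
  omega

/-- a space of sections of degree zero is spanned by any non-zero member -/
theorem mem_V_deg0 (h : TL d N z) {κ : J → ℕ} (hκ : ∀ j, κ j ≤ N) (h0 : dot κ d = 0)
    {u : I → E} (hu : u ∈ z.V κ) (hu0 : u ≠ 0) {w : I → E} (hw : w ∈ z.V κ) :
    ∃ c : E, w = c • u := by
  have h1 := h.finrank_V hκ
  rw [h0, zero_add] at h1
  obtain ⟨c, hc⟩ := (finrank_eq_one_iff_of_nonzero' (⟨u, hu⟩ : z.V κ)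
    fun e => hu0 (congrArg Subtype.val e)).1 h1 ⟨w, hw⟩
  exact ⟨c, (congrArg Subtype.val hc).symm⟩

theorem const_of_V0 (h : TL d N z) {w : I → E} (hw : w ∈ z.V 0) : ∃ c : E, ∀ q, w q = c := by
  obtain ⟨q₀⟩ := nonempty_pts h
  obtain ⟨c, hc⟩ := mem_V_deg0 h (fun _ => Nat.zero_le _) (by simp [dot]) (one_mem_V h)
    (fun e => one_ne_zero (congrFun e q₀)) hw
  exact ⟨c, fun q => by simp [hc]⟩

/-- a factor of degree zero is constant -/
theorem deg0 (h : TL d N z) (hN : 1 ≤ N) {j : J} (hj : d j = 0) (q₀ : I) :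
    ∃ s : I → E, (∀ q, s q ≠ 0) ∧ s q₀ = 1 ∧ s ∈ z.V (Pi.single j 1) ∧
      ∀ q a, z.y q j a = s q * z.y q₀ j a := by
  obtain ⟨i, hi⟩ := h.nz q₀ j
  have key : ∀ q a, z.y q j a = z.y q j i / z.y q₀ j i * z.y q₀ j a := fun q a => by
    obtain ⟨c, hc⟩ := mem_V_deg0 h (fun i => (single_le j i).trans hN) (by rw [dot_single, hj])
      (X_mem_V h hN j i) (fun e => hi (congrFun e q₀)) (X_mem_V h hN j a)
    have h1 := congrFun hc q
    have h2 := congrFun hc q₀
    simp only [Pi.smul_apply, smul_eq_mul] at h1 h2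
    rw [h1, h2]
    field_simp
  refine ⟨fun q => z.y q j i / z.y q₀ j i, fun q hq => ?_, div_self hi, ?_, key⟩
  · obtain ⟨a, ha⟩ := h.nz q j
    exact ha (by rw [key q a, show z.y q j i / z.y q₀ j i = 0 from hq, zero_mul])
  · have := (z.V _).smul_mem (z.y q₀ j i)⁻¹ (X_mem_V h hN j i)
    convert this using 1
    funext q
    simp [div_eq_inv_mul]

/-- products of sections -/
theorem mul_mem_V (h : TL d N z) {κ κ' : J → ℕ} (hκ : ∀ j, (κ + κ') j ≤ N)
    {F : MvPolynomial (Vr io) ℂ} (hF : MH F κ') {u : I → E} (hu : u ∈ z.V κ) :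
    (fun q => pv (z.y q) F * u q) ∈ z.V (κ + κ') := by
  obtain ⟨k, _, _, _, ⟨D⟩⟩ := h
  have h1 : HZ (fun _ : Unit => κ + κ') (fun _ : Unit => κ) fun _ _ => F :=
    fun _ _ => (MZ.of_MH hF).congr fun j => by simp
  have := D.mpL_mem h1 (fun _ j => (Nat.le_add_right _ _).trans (hκ j)) (fun _ => hκ)
    (σ := fun x => u x.2) (mem_Am.2 fun _ => hu)
  simpa [mpL_apply] using mem_Am.1 this ()

/-- multiplication by a nowhere vanishing section of degree zero -/
theorem mem_V_add (h : TL d N z) {κ κ' : J → ℕ} (hκ : ∀ j, (κ + κ') j ≤ N) (h0 : dot κ' d = 0)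
    {F : MvPolynomial (Vr io) ℂ} (hF : MH F κ') (hne : ∀ q, pv (z.y q) F ≠ 0) {w : I → E} :
    w ∈ z.V (κ + κ') ↔ (fun q => w q / pv (z.y q) F) ∈ z.V κ := by
  have e : sclS (fun q => pv (z.y q) F) (z.V κ) = z.V (κ + κ') := by
    refine Submodule.eq_of_le_of_finrank_eq ?_ ?_
    · rintro _ ⟨u, hu, rfl⟩
      exact mul_mem_V h hκ hF hu
    · rw [finrank_sclS hne, h.finrank_V hκ, h.finrank_V fun j => (Nat.le_add_right _ _).trans (hκ j),
        dot_add_left, h0, add_zero]
  rw [← e, mem_sclS_iff hne]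
  simp only [div_eq_inv_mul]

/-- a factor of positive degree is not constant on the points -/
theorem indep (h : TL d N z) (hN : 1 ≤ N) {j : J} (hj : d j ≠ 0) :
    ∃ q q' a b, z.y q j a * z.y q' j b - z.y q j b * z.y q' j a ≠ 0 := by
  by_contra h0
  push Not at h0
  obtain ⟨q₀⟩ := nonempty_pts h
  obtain ⟨k, _, _, _, ⟨D⟩⟩ := h
  have h1 : ∀ x a b, D.t.ev (D.sp q₀) j b * D.t.ev x j a - D.t.ev (D.sp q₀) j a * D.t.ev x j b = 0 := by
    intro x a b
    have hs : ∀ a, (D.t.IsSec (Pi.single j 1) fun v => sb (D.t.vg v) (MvPolynomial.X ⟨j, a⟩)) ∧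
        ∀ x, val (Pi.single j 1) D.t (fun v => sb (D.t.vg v) (MvPolynomial.X ⟨j, a⟩)) x =
          D.t.ev x j a := fun a => by
      have := isSec_sb (q := MvPolynomial.X ⟨j, a⟩) (κ := Pi.single j 1)
        (MvPolynomial.isWeightedHomogeneous_X ℂ (fun v : Vr io => (Pi.single v.1 1 : J → ℕ))
          ⟨j, a⟩) D.ok
      simpa only [pv, MvPolynomial.aeval_X] using this
    have h2 := D.eq_zero (fun i => (single_le j i).trans hN)
      (((hs a).1.smul (D.t.ev (D.sp q₀) j b)).add ((hs b).1.smul (-D.t.ev (D.sp q₀) j a)))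
      fun q => by
        rw [Tr.val_add, Tr.val_smul, Tr.val_smul, (hs a).2, (hs b).2, D.ev_sp, D.ev_sp]
        have := congrArg D.α (h0 q q₀ a b)
        simp only [map_sub, map_mul, map_zero] at this
        linear_combination (D.c q j * D.c q₀ j) * this
    have h3 := congrArg (fun s => val (Pi.single j 1) D.t s x) h2
    simp only [Tr.val_add, Tr.val_smul, (hs a).2, (hs b).2, Tr.val_zero] at h3
    linear_combination h3
  obtain ⟨v, hv⟩ : ∃ v, D.t.vd v j ≠ 0 := by
    by_contra h2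
    push Not at h2
    exact hj ((congrFun D.deg j).symm.trans
      ((sum_vd _ j).symm.trans (Finset.sum_eq_zero fun v _ => h2 v)))
  obtain ⟨b, hb⟩ := D.ok.ev_ne (D.sp q₀) j
  have h2 : ∀ p, D.t.ev (v, p) j b ≠ 0 := fun p hp => by
    obtain ⟨a, ha⟩ := D.ok.ev_ne (v, p) j
    have := h1 (v, p) a b
    rw [hp, mul_zero, sub_zero] at this
    exact mul_ne_zero hb ha this
  have h3 : (D.t.vg v j b).coeff (D.t.vd v j) ≠ 0 := h2 none
  have h4 : (D.t.vg v j b).degree ≠ 0 := fun e => by
    have := le_natDegree_of_ne_zero h3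
    rw [natDegree_eq_zero_iff_degree_le_zero.2 e.le] at this
    omega
  obtain ⟨x, hx⟩ := IsAlgClosed.exists_root _ h4
  exact h2 (some x) hx

theorem cU_le (h : TL d N z) (hN : 1 ≤ N) (j : J) :
    Submodule.span E (Set.range fun (a : io j) (x : (io j × io j) × I) =>
      pv (z.y x.2) (wU io j x.1 a)) ≤ Rb (fun _ => Pi.single j 1) (wU io j) z := by
  refine Submodule.span_le.2 ?_
  rintro _ ⟨a, rfl⟩
  refine mem_Rb.2 ⟨fun b => ?_, fun q => ⟨Pi.single a 1, funext fun b => by simp [pM]⟩⟩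
  simp only [pv_wU]
  refine sub_mem (x := fun q => if a = b.1 then z.y q j b.2 else 0)
    (y := fun q => if a = b.2 then z.y q j b.1 else 0) ?_ ?_ <;> split_ifs
  exacts [X_mem_V h hN j _, zero_mem _, X_mem_V h hN j _, zero_mem _]

theorem wedge_id {R P : Type*} [CommRing R] (w T T' : P → R) (p i j : P) :
    w p * (T i * T' j - T j * T' i) = T' j * (w p * T i - w i * T p) -
      T' i * (w p * T j - w j * T p) + T p * (w i * T' j - w j * T' i) := by ring

theorem finrank_cU (h : TL d N z) (hN : 1 ≤ N) {j : J} (hj : d j ≠ 0) :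
    Module.finrank E (Submodule.span E (Set.range fun (a : io j) (x : (io j × io j) × I) =>
      pv (z.y x.2) (wU io j x.1 a))) = Fintype.card (io j) := by
  refine finrank_span_eq_card (Fintype.linearIndependent_iff.2 fun w hw p => ?_)
  obtain ⟨q, q', a, b, hne⟩ := indep h hN hj
  have h1 : ∀ q a b, w a * z.y q j b - w b * z.y q j a = 0 := fun q a b => by
    have := congrFun hw ((a, b), q)
    simp only [Finset.sum_apply, Pi.smul_apply, smul_eq_mul, Pi.zero_apply, mul_comm (w _)] at this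
    rw [sum_wU] at this
    exact this
  have := wedge_id w (z.y q j) (z.y q' j) p a b
  rw [h1, h1, h1] at this
  simpa [hne] using this

/-- the rank of the obstruction bundle -/
theorem finrank_HU' (h : TL d N z) {j : J} (hN : 2 * (Fintype.card (io j) + 1) ≤ N)
    (hj : d j ≠ 0) : Module.finrank E (Rb (fun _ => Pi.single j 1) (wU io j) z) =
      Module.finrank E (Submodule.span E (Set.range fun (a : io j) (x : (io j × io j) × I) =>
        pv (z.y x.2) (wU io j x.1 a))) + (d j - 1) := by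
  have := finrank_HU h j hN
  rw [finrank_cU h (by omega) hj]
  omega

end Crest.Agent.X262.Cc84
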