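import Crest.Agent.X262.Cc84.Rank
import Crest.Agent.X262.Cc46.Abs
import Crest.Agent.X262.Cb72.Whit
import Crest.Agent.X262.Conc78.A
import Crest.Agent.X262.Tree87.Prj

/-!
# Row 262, road B (helper84): the concave part, `cStmt : Conc78.CStmt`
-/

set_option autoImplicit false
set_option linter.unusedSectionVars false

noncomputable section

namespace Crest.Agent.X262.Cc84

open Crest.Agent.X262.Vb Crest.Agent.X262.Hb Crest.Agent.X262.Conc78 Crest.Agent.X262.Cc46
open Crest.Agent.X262.Tree87 (TL Rb mem_Rb pM pR)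
open Crest.Agent.X262.Cb72 (TLr tlr_red)
open Crest.Agent.X277 Crest.Agent.X277.BD

variable {J : Type} [Fintype J] [DecidableEq J] {io : J → Type} [∀ j, Fintype (io j)]
  [∀ j, DecidableEq (io j)] {I : Type} [Fintype I] {E : Type} [Field E] [Algebra ℂ E]
  {d : J → ℕ} {N : ℕ} {z : Cfg io I E}

/-- at every valuation two of the points stay different -/
theorem ind (hz : TLr d N z) (hN : 1 ≤ N) {j : J} (hj : d j ≠ 0) :
    Ind (fun q => ln (z.y q) j) fun q a => z.y q j a := fun V => by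
  obtain ⟨q, q', a, b, h⟩ := indep (hz.2 V) hN hj
  refine ⟨q, q', a, b, ?_⟩
  have hp := Cfg.pr_nrm hz.1.nz V
  have hm : ∀ q a, z.nrm V q j * z.y q j a ∈ (Cyc.plV V).V.1 := fun q a => (hp q j).1 a
  have h1 : (Cyc.plV V).r (z.nrm V q j * z.y q j a * (z.nrm V q' j * z.y q' j b) -
      z.nrm V q j * z.y q j b * (z.nrm V q' j * z.y q' j a)) ≠ 0 := by
    rw [Pl.r_sub (mul_mem (hm _ _) (hm _ _)) (mul_mem (hm _ _) (hm _ _)),
      Pl.r_mul (hm _ _) (hm _ _), Pl.r_mul (hm _ _) (hm _ _)]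
    exact h
  have h2 : V.v (z.nrm V q j * z.nrm V q' j *
      (z.y q j a * z.y q' j b - z.y q j b * z.y q' j a)) = 1 := by
    exact (congrArg V.v (by ring)).trans (Pl.r_ne_zero_iff.1 h1)
  have h3 : ∀ q, V.v (z.nrm V q j) = ((ln (z.y q) j).val V)⁻¹ := fun q => by
    rw [Cfg.nrm, map_inv₀, v_gen]
  rw [map_mul, map_mul, h3, h3, ← mul_inv] at h2
  exact (eq_of_inv_mul_eq_one h2).symm

theorem sum_wdM {P : Type} [Fintype P] [DecidableEq P] (t : P → MvPolynomial (Vr io) ℂ)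
    (y : Pnt io E) (w : P → E) (b : P × P) :
    ∑ a, pv y (wdM t b a) * w a = w b.1 * pv y (t b.2) - w b.2 * pv y (t b.1) := by
  have h : ∀ a, pv y (wdM t b a) =
      (if a = b.1 then pv y (t b.2) else 0) - if a = b.2 then pv y (t b.1) else 0 := fun a => by
    unfold wdM pv
    split_ifs <;> simp
  simp only [h, sub_mul, Finset.sum_sub_distrib, ite_mul, zero_mul, Finset.sum_ite_eq',
    Finset.mem_univ, if_true]
  ring

theorem Rb_wdM {P : Type} [Fintype P] [DecidableEq P] (t : P → MvPolynomial (Vr io) ℂ)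
    (κ : J → ℕ) (z : Cfg io I E) :
    Rb (fun _ => κ) (wdM t) z = HW (z.V κ) fun q p => pv (z.y q) (t p) := by
  ext σ
  rw [mem_Rb, mem_HW]
  refine and_congr_right fun _ => forall_congr' fun q => exists_congr fun w => ?_
  have h : ∀ b, (pM (wdM t) (z.y q)).mulVecLin w b =
      w b.1 * pv (z.y q) (t b.2) - w b.2 * pv (z.y q) (t b.1) := fun b => sum_wdM t _ w b
  exact ⟨fun e p p' => by rw [← h (p, p'), e], fun e => funext fun b => by rw [h, e]⟩

theorem HU_eq (j : J) (z : Cfg io I E) :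
    HU j z = HW (z.V (Pi.single j 1)) fun q a => z.y q j a := by
  simp only [HU, Rb_wdM, pv_vr]

theorem cU_eq (j : J) (z : Cfg io I E) :
    cU j z = LinearMap.range (cw 1 fun q a => z.y q j a) := by
  have h : ∀ c : io j → E, cw 1 (fun q a => z.y q j a) c =
      ∑ a, c a • fun x : (io j × io j) × I => pv (z.y x.2) (wdM (vr j) x.1 a) := fun c =>
    funext fun ⟨⟨p, p'⟩, q⟩ => by
      have := sum_wdM (vr j) (z.y q) c (p, p')
      simp only [pv_vr] at this
      simp only [cw_apply, Pi.one_apply, one_mul, Finset.sum_apply, Pi.smul_apply, smul_eq_mul,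
        ← this, mul_comm]
  ext x
  simp only [cU, Submodule.mem_span_range_iff_exists_fun, LinearMap.mem_range, h]

/-- sections proportional to the coordinates are constant multiples -/
theorem prop_y (h : TL d N z) (hN : 2 ≤ N) (j : J) (x : io j → I → E)
    (hx : ∀ k, x k ∈ z.V (Pi.single j 1)) (hc : ∀ q, ∃ c, ∀ k, x k q = c * z.y q j k) :
    ∃ c, ∀ q k, x k q = c * z.y q j k := by
  obtain ⟨k, _, _, _, ⟨D⟩⟩ := h
  obtain ⟨μ, hμ⟩ := D.prop (η := vr j) (mh_vr j)
    (fun x => by simpa only [pv_vr] using D.ok.ev_ne x j)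
    (fun i => by have := single_le j i; omega) hx fun q a b => by
      obtain ⟨c, hc⟩ := hc q
      rw [hc, hc, pv_vr, pv_vr]
      ring
  exact ⟨μ, fun q k => by rw [hμ, pv_vr]⟩

theorem val_ln_x (n : Cn io) {y : Pnt io E} (hy : NZ y) (h : n.xT.On y) (V : RZ ℂ E) :
    (ln y n.jC).val V = V.v (y n.jC (n.f none)) := by
  obtain ⟨i, hi⟩ := exists_ln hy n.jC V
  obtain ⟨i, rfl⟩ := n.f.surjective i
  rcases i with _ | p
  · exact hi.symm
  · rw [← n.pv_xi y p, show pv y (n.xi p) = 0 from h p, map_zero] at hi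
    exact absurd hi.symm (val_ne _ _)

theorem val_ln_scl {y y' : Pnt io E} (hy : NZ y) (hy' : NZ y') {j : J} {s : E}
    (h : ∀ a, y' j a = s * y j a) (V : RZ ℂ E) : (ln y' j).val V = V.v s * (ln y j).val V := by
  apply le_antisymm
  · obtain ⟨i, hi⟩ := exists_ln hy' j V
    rw [← hi, h, map_mul]
    exact mul_le_mul_right (le_ln y j i V) _
  · obtain ⟨i, hi⟩ := exists_ln hy j V
    rw [← hi, ← map_mul, ← h]
    exact le_ln y' j i V

theorem cp_HQ {B : Th} (hB : B.Ax) [Algebra.EssFiniteType ℂ E] (n : Cn io) (h : n.Dg d)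
    (hz : TLr d N z) (hN : 2 ≤ N) (hx : z.On n.xT) (q₀ : I) :
    B.cp (z.ea n.uT) (n.HQ z) = (-Polynomial.X) ^ Fintype.card n.KL *
      (ob B n.jU z).comp (Polynomial.X + Polynomial.C (B.c1 (ln (z.y q₀) n.jS))) := by
  have h1 : 1 ≤ N := by omega
  have nz := hz.1.nz
  obtain ⟨s, hs, -, -, hy⟩ := deg0 hz.1 h1 h.S q₀
  obtain ⟨l, hl⟩ := nz q₀ n.jS
  have h0 : ∀ q, z.y q n.jC (n.f none) ≠ 0 := fun q =>
    RZ.ne_zero_iff.1 (val_ln_x n (nz q) (hx q) (RZ.top ℂ E) ▸ val_ne _ _)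
  have hξ : ∀ q, z.y q n.jC (n.f none) * s q ≠ 0 := fun q => mul_ne_zero (h0 q) (hs q)
  have hk : n.kq = Pi.single n.jU 1 + (Pi.single n.jC 1 + Pi.single n.jS 1) := add_left_comm _ _ _
  have hF : ∀ q, pv (z.y q) (vr n.jC (n.f none) * vr n.jS l) =
      z.y q n.jC (n.f none) * s q * z.y q₀ n.jS l := fun q => by
    rw [mul_assoc, ← hy, ← pv_vr (z.y q) n.jC, ← pv_vr (z.y q) n.jS]
    exact map_mul _ _ _
  have e := cp_HW hB (ξ := fun q => z.y q n.jC (n.f none) * s q) (U := fun q a => z.y q n.jU a)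
    (m := z.y q₀ n.jS) (a := fun q => ln (z.y q) n.jU) (a' := fun q => lw n.kq (z.y q))
    (t := ln (z.y q₀) n.jS) (V₀ := z.V (Pi.single n.jU 1)) (V' := z.V n.kq) hξ
    (fun V q k => le_ln _ _ k V) (ind hz h1 h.U) (fun V l => le_ln _ _ l V)
    (exists_ln (nz q₀) _) (fun V q => by
      rw [n.lw_kq, val_add, val_add, val_ln_x n (nz q) (hx q), val_ln_scl (nz q₀) (nz q) (hy q),
        map_mul]
      ac_rfl) (fun q => nz q _) (fun x => by
      rw [hk, mem_V_add hz.1 (fun j => hk ▸ (n.kq_le j).trans h1)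
        (by rw [dot_add_left, dot_single, dot_single, h.C, h.S]) ((mh_vr _ _).mul (mh_vr _ _))
        fun q => hF q ▸ mul_ne_zero (hξ q) hl, ← (z.V _).smul_mem_iff hl]
      refine iff_of_eq (congrArg (· ∈ _) (funext fun q => ?_))
      have := h0 q
      have := hs q
      rw [Pi.smul_apply, hF, smul_eq_mul]
      field_simp) (X_mem_V hz.1 h1 _) (prop_y hz.1 hN _)
  have e1 : n.HQ z = HW (z.V n.kq) (tn (fun q a => z.y q n.jU a) (z.y q₀ n.jS)) := by
    rw [Cn.HQ, Rb_wdM]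
    exact HW_scl _ hs fun q p => by rw [n.pv_tp, hy, mul_left_comm]
  have e2 : aU n.jU z = fun x => ln (z.y x.2) n.jU := funext fun x => lw_single _ _
  rw [ob, e1, e2, cU_eq, HU_eq]
  exact e

/-- **the concave part** -/
theorem cStmt : CStmt := by
  intro B hB J _ _ io _ _ n d h
  refine ⟨2 * (Fintype.card (io n.jU) + 1), fun ξ hN p z hz => ?_⟩
  have h1 := hz ▸ tlr_red hN p
  have h2 : cU n.jU z ≤ HU n.jU z := cU_le h1.1 (by omega) _
  have h3 : Module.finrank _ (HU n.jU z) = Module.finrank _ (cU n.jU z) + (d n.jU - 1) :=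
    finrank_HU' h1.1 le_rfl h.U
  exact ⟨⟨Polynomial.natDegree_le_iff_coeff_eq_zero.2 fun _ hn => hB.coeff_cp2_gt h2 h3 hn,
    hB.coeff_cp2_top h2 h3⟩, fun hx q₀ => cp_HQ hB n h h1 (by omega) hx q₀⟩

end Crest.Agent.X262.Cc84
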